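import Vale.Agent.P142.Int

open Set Filter Topology Metric MeasureTheory

namespace Vale.Agent.Results.P142.Bound113

/-- Injective holomorphic maps of the unit disc. -/
def Univalent (f : ℂ → ℂ) : Prop :=
  DifferentiableOn ℂ f (ball 0 1) ∧ InjOn f (ball 0 1)

/-- The class `S`. -/
def ClassS (f : ℂ → ℂ) : Prop := Univalent f ∧ f 0 = 0 ∧ deriv f 0 = 1

/-- The integral means `M_t[f'](r)`. -/
noncomputable def mean (f : ℂ → ℂ) (t r : ℝ) : ℝ :=
  1 / (2 * Real.pi) *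
    ∫ θ in -Real.pi..Real.pi, ‖deriv f ((r : ℂ) * Complex.exp ((θ : ℂ) * Complex.I))‖ ^ t

/-- The growth exponent `β_f(t)`. -/
noncomputable def beta (f : ℂ → ℂ) (t : ℝ) : EReal :=
  limsup (fun r : ℝ => ((Real.log (mean f t r) / Real.log (1 / (1 - r)) : ℝ) : EReal)) (𝓝[<] 1)

/-- The integral means spectrum `B_S(t)`. -/
noncomputable def spectrumS (t : ℝ) : EReal := ⨆ f : {f : ℂ → ℂ // ClassS f}, beta f.1 t

theorem result : spectrumS (-2) ≤ ((1.13 : ℝ) : EReal) ∧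
    ∀ f : ℂ → ℂ, Univalent f → ∀ t : ℝ, -2 / 1.13 < t → t ≤ 0 →
      IntegrableOn (fun z : ℂ => ‖deriv f z‖ ^ t) (ball 0 1) volume := by
  refine ⟨iSup_le fun f => ?_, fun f hf t h1 h2 =>
    Vale.Agent.P142.Un.integrable ⟨hf.1, hf.2⟩ h1 h2⟩
  obtain ⟨C, hC, h⟩ := Vale.Agent.P142.Un.mean_le ⟨f.2.1.1, f.2.1.2⟩
  refine Vale.Agent.P142.limsup_le hC (by norm_num) (fun r => ?_) h
  have := Real.pi_pos
  exact mul_nonneg (by positivity)
    (intervalIntegral.integral_nonneg (by linarith) fun θ _ => by positivity)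

end Vale.Agent.Results.P142.Bound113
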